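import Vale.Agent.P291.RG.H17.Pol
import Vale.Agent.P291.RG.Pts

/-!
# P291, part B: the real moment map on projections, the scaling of the norm, equivariance (helper17)
-/

set_option autoImplicit false
set_option linter.unusedSectionVars false

namespace Vale.Agent.P291.RG.H17

open Vale.Agent.P291.Q Matrix Finset

variable {D : QData}

/-- part of weight `c` of a point under `gc P c` -/
noncomputable def al (P : Lg D) (x : Pt D) : ℝ :=
  (∑ a, (nsq (P (D.tgt a) * x.s a * (1 - P (D.src a))) +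
    nsq (P (D.src a) * x.p a * (1 - P (D.tgt a))))) + ∑ k, nsq (P k * x.j k * (1 : Matrix (Fin (D.w k)) (Fin (D.w k)) ℂ))

/-- part of weight `c⁻¹` of a point under `gc P c` -/
noncomputable def be (P : Lg D) (x : Pt D) : ℝ :=
  (∑ a, (nsq ((1 - P (D.tgt a)) * x.s a * P (D.src a)) +
    nsq ((1 - P (D.src a)) * x.p a * P (D.tgt a)))) + ∑ k, nsq ((1 : Matrix (Fin (D.w k)) (Fin (D.w k)) ℂ) * x.i k * P k)

/-- part of weight `1` of a point under `gc P c` -/
noncomputable def ze (P : Lg D) (x : Pt D) : ℝ :=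
  (∑ a, ((nsq ((1 - P (D.tgt a)) * x.s a * (1 - P (D.src a))) +
      nsq (P (D.tgt a) * x.s a * P (D.src a))) +
    (nsq ((1 - P (D.src a)) * x.p a * (1 - P (D.tgt a))) +
      nsq (P (D.src a) * x.p a * P (D.tgt a))))) +
    ∑ k, (nsq ((1 - P k) * x.j k * (1 : Matrix (Fin (D.w k)) (Fin (D.w k)) ℂ)) + nsq ((1 : Matrix (Fin (D.w k)) (Fin (D.w k)) ℂ) * x.i k * (1 - P k)))

/-- squared norm of a point -/
noncomputable def nn (x : Pt D) : ℝ :=
  (∑ a, (nsq (x.s a) + nsq (x.p a))) + ∑ k, (nsq (x.j k) + nsq (x.i k))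

theorem al_nonneg (P : Lg D) (x : Pt D) : 0 ≤ al P x :=
  add_nonneg (sum_nonneg fun _ _ => add_nonneg (nsq_nonneg _) (nsq_nonneg _))
    (sum_nonneg fun _ _ => nsq_nonneg _)

theorem be_nonneg (P : Lg D) (x : Pt D) : 0 ≤ be P x :=
  add_nonneg (sum_nonneg fun _ _ => add_nonneg (nsq_nonneg _) (nsq_nonneg _))
    (sum_nonneg fun _ _ => nsq_nonneg _)

theorem isPr_one {n : Type*} [Fintype n] [DecidableEq n] : IsPr (1 : Matrix n n ℂ) :=
  ⟨by simp, by simp⟩

/-- the real moment map on a graded projection -/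
theorem rmom_pr {P : Lg D} (hP : IsGr P) (x : Pt D) : rmom x P = ((al P x - be P x : ℝ) : ℂ) := by
  unfold rmom al be
  push_cast
  rw [show ∀ a b c d : ℂ, a + b - (c + d) = (a - c) + (b - d) from fun a b c d => by ring,
    ← sum_sub_distrib, ← sum_sub_distrib]
  congr 1
  · refine sum_congr rfl fun a _ => ?_
    rw [nsq_pr (hP _) (hP _).compl, nsq_pr (hP _) (hP _).compl, nsq_pr (hP _).compl (hP _),
      nsq_pr (hP _).compl (hP _)]
    have e1 : trace (x.s a * (P (D.src a) * (x.s a)ᴴ)) =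
        trace (P (D.src a) * ((x.s a)ᴴ * x.s a)) := by
      rw [trace_mul_comm, Matrix.mul_assoc]
    have e2 : trace (x.p a * (P (D.tgt a) * (x.p a)ᴴ)) =
        trace (P (D.tgt a) * ((x.p a)ᴴ * x.p a)) := by
      rw [trace_mul_comm, Matrix.mul_assoc]
    simp only [Matrix.mul_sub, Matrix.sub_mul, Matrix.mul_one, Matrix.one_mul, trace_sub,
      Matrix.mul_assoc, e1, e2]
    ring
  · refine sum_congr rfl fun k _ => ?_
    rw [nsq_pr (hP _) isPr_one, nsq_pr isPr_one (hP _)]
    have e1 : trace (x.i k * (P k * (x.i k)ᴴ)) = trace (P k * ((x.i k)ᴴ * x.i k)) := by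
      rw [trace_mul_comm, Matrix.mul_assoc]
    simp only [Matrix.mul_sub, Matrix.sub_mul, Matrix.mul_one, Matrix.one_mul, trace_sub,
      Matrix.mul_assoc, e1]

/-- the point moved by `gc P c` -/
noncomputable def mv (P : Lg D) (c : ℝ) (x : Pt D) : Pt D where
  s a := gc (P (D.tgt a)) c * x.s a * gc (P (D.src a)) c⁻¹
  p a := gc (P (D.src a)) c * x.p a * gc (P (D.tgt a)) c⁻¹
  i k := x.i k * gc (P k) c⁻¹
  j k := gc (P k) c * x.j k

theorem gc_one' {n : Type*} [Fintype n] [DecidableEq n] (c : ℝ) (hc : c = 1) :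
    gc (1 : Matrix n n ℂ) c = 1 := by subst hc; simp [gc]

theorem nn_mv {P : Lg D} (hP : IsGr P) {c : ℝ} (hc : c ≠ 0) (x : Pt D) :
    nn (mv P c x) = ze P x + c ^ 2 * al P x + (c⁻¹) ^ 2 * be P x := by
  have hcc : c ^ 2 * (c⁻¹) ^ 2 = 1 := by
    rw [← mul_pow, mul_inv_cancel₀ hc, one_pow]
  have hj : ∀ k, nsq (gc (P k) c * x.j k) =
      nsq ((1 - P k) * x.j k * (1 : Matrix (Fin (D.w k)) (Fin (D.w k)) ℂ)) + c ^ 2 * nsq (P k * x.j k * (1 : Matrix (Fin (D.w k)) (Fin (D.w k)) ℂ)) := by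
    intro k
    have := nsq_gc (hP k) (isPr_one (n := Fin (D.w k))) c 1 (x.j k)
    rw [gc_one, Matrix.mul_one, sub_self, Matrix.mul_zero, Matrix.mul_zero, nsq_zero] at this
    rw [this]
    ring
  have hi : ∀ k, nsq (x.i k * gc (P k) c⁻¹) =
      nsq ((1 : Matrix (Fin (D.w k)) (Fin (D.w k)) ℂ) * x.i k * (1 - P k)) +
        (c⁻¹) ^ 2 * nsq ((1 : Matrix (Fin (D.w k)) (Fin (D.w k)) ℂ) * x.i k * P k) := by
    intro k
    have := nsq_gc (isPr_one (n := Fin (D.w k))) (hP k) 1 c⁻¹ (x.i k)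
    rw [gc_one, Matrix.one_mul, sub_self, Matrix.zero_mul, Matrix.zero_mul, Matrix.zero_mul,
      nsq_zero] at this
    rw [this, Matrix.one_mul]
    ring
  unfold nn ze al be mv
  simp only [hj, hi, nsq_gc (hP _) (hP _)]
  rw [mul_add, mul_add, mul_sum, mul_sum, mul_sum, mul_sum]
  rw [show ∀ A B C E F G : ℝ, A + B + (C + E) + (F + G) = (A + C + F) + (B + E + G) from
    fun A B C E F G => by ring, ← sum_add_distrib, ← sum_add_distrib, ← sum_add_distrib,
    ← sum_add_distrib]
  congr 1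
  · refine sum_congr rfl fun a _ => ?_
    linear_combination (nsq (P (D.tgt a) * x.s a * P (D.src a)) +
      nsq (P (D.src a) * x.p a * P (D.tgt a))) * hcc
  · refine sum_congr rfl fun k _ => ?_
    ring

/-- moving preserves the level sets of the moment map -/
theorem cx_mv {ν : D.I → ℤ} {P : Lg D} (hP : IsGr P) {c : ℝ} (hc : c ≠ 0) {x : Pt D}
    (h : Cx ν x) : Cx ν (mv P c x) := by
  intro ξ
  have e := h (fun k => gc (P k) c⁻¹ * ξ k * gc (P k) c)
  have e1 : ∀ k, trace (gc (P k) c⁻¹ * ξ k * gc (P k) c) = trace (ξ k) := by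
    intro k
    rw [trace_mul_comm, ← Matrix.mul_assoc, gc_inv' (hP k) hc, Matrix.one_mul]
  simp only [e1] at e
  rw [← e]
  unfold mom mv
  simp only
  congr 1
  · refine sum_congr rfl fun a _ => ?_
    have i1 := gc_inv' (hP (D.tgt a)) hc
    have i2 := gc_inv (hP (D.src a)) hc
    set A := gc (P (D.tgt a)) c
    set A' := gc (P (D.tgt a)) c⁻¹
    set B := gc (P (D.src a)) c
    set B' := gc (P (D.src a)) c⁻¹
    rw [Matrix.mul_sub, Matrix.mul_sub, trace_sub, trace_sub]
    congr 1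
    · calc trace (B * x.p a * A' * (ξ (D.tgt a) * (A * x.s a * B')))
          = trace (B * (x.p a * A' * ξ (D.tgt a) * A * x.s a * B')) := by
            simp only [Matrix.mul_assoc]
        _ = trace (x.p a * A' * ξ (D.tgt a) * A * x.s a * B' * B) := by rw [trace_mul_comm]
        _ = trace (x.p a * A' * ξ (D.tgt a) * A * x.s a * (B' * B)) := by
            simp only [Matrix.mul_assoc]
        _ = trace (x.p a * (A' * ξ (D.tgt a) * A * x.s a)) := by
            rw [i2, Matrix.mul_one]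
            simp only [Matrix.mul_assoc]
    · calc trace (B * x.p a * A' * (A * x.s a * B' * ξ (D.src a)))
          = trace (B * x.p a * (A' * A) * x.s a * B' * ξ (D.src a)) := by
            simp only [Matrix.mul_assoc]
        _ = trace (B * (x.p a * x.s a * B' * ξ (D.src a))) := by
            rw [gc_inv (hP (D.tgt a)) hc, Matrix.mul_one]
            simp only [Matrix.mul_assoc]
        _ = trace (x.p a * x.s a * B' * ξ (D.src a) * B) := by rw [trace_mul_comm]
        _ = trace (x.p a * (x.s a * (B' * ξ (D.src a) * B))) := by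
            simp only [Matrix.mul_assoc]
  · refine sum_congr rfl fun k _ => ?_
    rw [Matrix.mul_neg, Matrix.mul_neg, trace_neg, trace_neg]
    congr 1
    set A := gc (P k) c
    set A' := gc (P k) c⁻¹
    calc trace (A * x.j k * (x.i k * A' * ξ k)) = trace (A * (x.j k * (x.i k * A' * ξ k))) := by
          rw [Matrix.mul_assoc]
      _ = trace (x.j k * (x.i k * A' * ξ k) * A) := by rw [trace_mul_comm]
      _ = _ := by simp only [Matrix.mul_assoc]

end Vale.Agent.P291.RG.H17
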