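import Mathlib

/-!
# P291, part B: squared norms and graded projections (helper17)
-/

set_option autoImplicit false

namespace Vale.Agent.P291.RG.H17

open Matrix Finset

/-- squared Frobenius norm -/
noncomputable def nsq {m n : Type*} [Fintype m] [Fintype n] (M : Matrix m n ℂ) : ℝ :=
  ∑ i, ∑ j, Complex.normSq (M i j)

section
variable {m n : Type*} [Fintype m] [Fintype n]

theorem nsq_nonneg (M : Matrix m n ℂ) : 0 ≤ nsq M :=
  sum_nonneg fun _ _ => sum_nonneg fun _ _ => Complex.normSq_nonneg _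

theorem nsq_zero : nsq (0 : Matrix m n ℂ) = 0 := by simp [nsq]

theorem le_nsq (M : Matrix m n ℂ) (i : m) (j : n) : Complex.normSq (M i j) ≤ nsq M := by
  have h1 : Complex.normSq (M i j) ≤ ∑ j', Complex.normSq (M i j') :=
    single_le_sum (f := fun j' => Complex.normSq (M i j')) (fun _ _ => Complex.normSq_nonneg _)
      (mem_univ j)
  exact h1.trans (single_le_sum (f := fun i' => ∑ j', Complex.normSq (M i' j'))
    (fun _ _ => sum_nonneg fun _ _ => Complex.normSq_nonneg _) (mem_univ i))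

theorem nsq_trace (M : Matrix m n ℂ) : (nsq M : ℂ) = trace (M * Mᴴ) := by
  rw [nsq, trace]
  push_cast
  refine sum_congr rfl fun i _ => ?_
  rw [diag_apply, mul_apply]
  refine sum_congr rfl fun j _ => ?_
  rw [conjTranspose_apply, Complex.normSq_eq_conj_mul_self, mul_comm]
  rfl

end

section
variable {m n : Type*} [Fintype m] [Fintype n] [DecidableEq m] [DecidableEq n]

/-- `P` is an orthogonal projection -/
def IsPr (P : Matrix m m ℂ) : Prop := P * P = P ∧ Pᴴ = P

theorem IsPr.compl {P : Matrix m m ℂ} (h : IsPr P) : IsPr (1 - P) := by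
  refine ⟨?_, ?_⟩
  · rw [Matrix.sub_mul, Matrix.mul_sub, Matrix.mul_sub, h.1]
    simp
  · rw [conjTranspose_sub, h.2, conjTranspose_one]

theorem nsq_pr {P : Matrix m m ℂ} {R : Matrix n n ℂ} (hP : IsPr P) (hR : IsPr R)
    (M : Matrix m n ℂ) : (nsq (P * M * R) : ℂ) = trace (P * M * R * Mᴴ) := by
  rw [nsq_trace, conjTranspose_mul, conjTranspose_mul, hP.2, hR.2]
  calc trace (P * M * R * (R * (Mᴴ * P))) = trace (P * (M * (R * R) * Mᴴ) * P) := by
        congr 1
        simp only [Matrix.mul_assoc]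
    _ = trace (P * (P * (M * (R * R) * Mᴴ))) := by rw [trace_mul_comm]
    _ = trace (P * P * (M * (R * R) * Mᴴ)) := by rw [Matrix.mul_assoc P P]
    _ = trace (P * M * R * Mᴴ) := by
        rw [hP.1, hR.1]
        congr 1
        simp only [Matrix.mul_assoc]

/-- the action of the one-parameter subgroup on a block -/
noncomputable def gc (P : Matrix m m ℂ) (c : ℝ) : Matrix m m ℂ := (1 - P) + (c : ℂ) • P

theorem gc_mul {P : Matrix m m ℂ} (h : IsPr P) (c d : ℝ) : gc P c * gc P d = gc P (c * d) := by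
  unfold gc
  have h1 : (1 - P) * P = 0 := by rw [Matrix.sub_mul, h.1, Matrix.one_mul, sub_self]
  have h2 : P * (1 - P) = 0 := by rw [Matrix.mul_sub, h.1, Matrix.mul_one, sub_self]
  rw [Matrix.add_mul, Matrix.mul_add, Matrix.mul_add, h.compl.1, Matrix.mul_smul, h1,
    Matrix.smul_mul, Matrix.smul_mul, h2, Matrix.mul_smul, h.1, smul_smul]
  push_cast
  simp

theorem gc_one (P : Matrix m m ℂ) : gc P 1 = 1 := by simp [gc]

theorem gc_inv {P : Matrix m m ℂ} (h : IsPr P) {c : ℝ} (hc : c ≠ 0) : gc P c⁻¹ * gc P c = 1 := by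
  rw [gc_mul h, inv_mul_cancel₀ hc, gc_one]

theorem gc_inv' {P : Matrix m m ℂ} (h : IsPr P) {c : ℝ} (hc : c ≠ 0) : gc P c * gc P c⁻¹ = 1 := by
  rw [gc_mul h, mul_inv_cancel₀ hc, gc_one]

theorem gc_herm {P : Matrix m m ℂ} (h : IsPr P) (c : ℝ) : (gc P c)ᴴ = gc P c := by
  unfold gc
  rw [conjTranspose_add, conjTranspose_smul, h.compl.2, h.2]
  simp

theorem nsq_gc {P : Matrix m m ℂ} {R : Matrix n n ℂ} (hP : IsPr P) (hR : IsPr R) (c d : ℝ)
    (M : Matrix m n ℂ) : nsq (gc P c * M * gc R d) =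
      nsq ((1 - P) * M * (1 - R)) + c ^ 2 * nsq (P * M * (1 - R)) + d ^ 2 * nsq ((1 - P) * M * R) +
        c ^ 2 * d ^ 2 * nsq (P * M * R) := by
  have h : (nsq (gc P c * M * gc R d) : ℂ) =
      nsq ((1 - P) * M * (1 - R)) + c ^ 2 * nsq (P * M * (1 - R)) + d ^ 2 * nsq ((1 - P) * M * R) +
        c ^ 2 * d ^ 2 * nsq (P * M * R) := by
    rw [nsq_pr hP.compl hR.compl, nsq_pr hP hR.compl, nsq_pr hP.compl hR, nsq_pr hP hR, nsq_trace,
      conjTranspose_mul, conjTranspose_mul, gc_herm hP, gc_herm hR]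
    calc trace (gc P c * M * gc R d * (gc R d * (Mᴴ * gc P c)))
        = trace (gc P c * (M * (gc R d * gc R d) * Mᴴ) * gc P c) := by
          congr 1
          simp only [Matrix.mul_assoc]
      _ = trace (gc P c * (gc P c * (M * (gc R d * gc R d) * Mᴴ))) := by rw [trace_mul_comm]
      _ = trace (gc P c * gc P c * (M * (gc R d * gc R d) * Mᴴ)) := by
          rw [Matrix.mul_assoc (gc P c) (gc P c)]
      _ = trace (gc P (c * c) * (M * gc R (d * d) * Mᴴ)) := by rw [gc_mul hP, gc_mul hR]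
      _ = _ := by
          unfold gc
          simp only [Matrix.mul_add, Matrix.add_mul, Matrix.mul_smul, Matrix.smul_mul, trace_add,
            trace_smul, smul_eq_mul, Matrix.mul_assoc]
          push_cast
          ring
  exact_mod_cast h

end

end Vale.Agent.P291.RG.H17
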