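import Vale.Agent.P291.RG.H17.Nsq

/-!
# P291, part B: a linear functional which vanishes on the projections is zero (helper17)
-/

set_option autoImplicit false
set_option linter.unusedSectionVars false

namespace Vale.Agent.P291.RG.H17

open Matrix Finset

variable {I : Type} [Fintype I] [DecidableEq I] {v : I → ℕ}

/-- block matrices -/
abbrev Gl (v : I → ℕ) : Type := ∀ i, Matrix (Fin (v i)) (Fin (v i)) ℂ

/-- graded orthogonal projections -/
def IsGr (P : Gl v) : Prop := ∀ i, IsPr (P i)

/-- rank one block -/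
noncomputable def r1 (i : I) (x y : Fin (v i) → ℂ) : Gl v := Pi.single i (vecMulVec x (star y))

theorem r1_add_left (i : I) (x x' y : Fin (v i) → ℂ) : r1 i (x + x') y = r1 i x y + r1 i x' y := by
  unfold r1
  rw [← Pi.single_add]
  congr 1
  ext a b
  simp [vecMulVec_apply, add_mul]

theorem r1_add_right (i : I) (x y y' : Fin (v i) → ℂ) : r1 i x (y + y') = r1 i x y + r1 i x y' := by
  unfold r1
  rw [← Pi.single_add]
  congr 1
  ext a b
  simp [vecMulVec_apply, mul_add]

theorem r1_smul_left (i : I) (c : ℂ) (x y : Fin (v i) → ℂ) : r1 i (c • x) y = c • r1 i x y := by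
  unfold r1
  rw [← Pi.single_smul]
  congr 1
  ext a b
  simp [vecMulVec_apply, mul_assoc]

theorem r1_smul_right (i : I) (c : ℂ) (x y : Fin (v i) → ℂ) :
    r1 i x (c • y) = star c • r1 i x y := by
  unfold r1
  rw [← Pi.single_smul]
  congr 1
  ext a b
  simp [vecMulVec_apply]
  ring

theorem isGr_r1 (i : I) (x : Fin (v i) → ℂ) (hx : x ≠ 0) :
    ∃ t : ℂ, t ≠ 0 ∧ IsGr (t • r1 i x x) := by
  obtain ⟨s, hs0, hs'⟩ : ∃ s : ℝ, s ≠ 0 ∧ star x ⬝ᵥ x = (s : ℂ) := by
    refine ⟨∑ j, Complex.normSq (x j), fun h0 => hx ?_, ?_⟩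
    · rw [sum_eq_zero_iff_of_nonneg fun _ _ => Complex.normSq_nonneg _] at h0
      funext j
      exact Complex.normSq_eq_zero.1 (h0 j (mem_univ _))
    · rw [dotProduct]
      push_cast
      refine sum_congr rfl fun j _ => ?_
      rw [Complex.normSq_eq_conj_mul_self]
      rfl
  refine ⟨((s⁻¹ : ℝ) : ℂ), ?_, ?_⟩
  · exact_mod_cast inv_ne_zero hs0
  · intro j
    by_cases hj : j = i
    · subst hj
      have e1 : ((((s⁻¹ : ℝ) : ℂ)) • r1 j x x) j = ((s⁻¹ : ℝ) : ℂ) • vecMulVec x (star x) := by
        simp [r1]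
      rw [e1]
      refine ⟨?_, ?_⟩
      · rw [Matrix.smul_mul, Matrix.mul_smul, vecMulVec_mul_vecMulVec, hs', smul_smul]
        ext a b
        simp only [Matrix.smul_apply, vecMulVec_apply, smul_eq_mul, Pi.smul_apply]
        have hsc : (s : ℂ) ≠ 0 := by exact_mod_cast hs0
        push_cast
        field_simp
      · ext a b
        simp only [conjTranspose_apply, Matrix.smul_apply, vecMulVec_apply, smul_eq_mul, Pi.star_apply,
          star_mul', star_star]
        rw [show star (((s⁻¹ : ℝ) : ℂ)) = ((s⁻¹ : ℝ) : ℂ) from Complex.conj_ofReal _]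
        ring
    · have e1 : ((((s⁻¹ : ℝ) : ℂ)) • r1 i x x) j = 0 := by
        simp [r1, Pi.single_eq_of_ne hj]
      rw [e1]
      exact ⟨by simp, by simp⟩

/-- a functional which vanishes on the graded projections is zero -/
theorem vanish (φ : Gl v →ₗ[ℂ] ℂ) (h : ∀ P : Gl v, IsGr P → φ P = 0) (ξ : Gl v) : φ ξ = 0 := by
  have h1 : ∀ i (x : Fin (v i) → ℂ), φ (r1 i x x) = 0 := by
    intro i x
    by_cases hx : x = 0
    · subst hx
      have : r1 i (0 : Fin (v i) → ℂ) 0 = 0 := by
        have := r1_smul_left i (0 : ℂ) (0 : Fin (v i) → ℂ) 0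
        simpa using this
      rw [this, map_zero]
    · obtain ⟨t, ht, hP⟩ := isGr_r1 i x hx
      have := h _ hP
      rw [map_smul, smul_eq_mul] at this
      exact (mul_eq_zero.1 this).resolve_left ht
  have h2 : ∀ i (x y : Fin (v i) → ℂ), φ (r1 i x y) = 0 := by
    intro i x y
    have e1 := h1 i (x + y)
    rw [r1_add_left, r1_add_right, r1_add_right, map_add, map_add, map_add, h1, h1] at e1
    have e2 := h1 i (x + Complex.I • y)
    rw [r1_add_left, r1_add_right, r1_add_right, r1_smul_left, r1_smul_left, r1_smul_right,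
      map_add, map_add, map_add, map_smul, map_smul, map_smul, h1,
      r1_smul_right, map_smul, h1] at e2
    have e3 : star Complex.I = - Complex.I := Complex.conj_I
    rw [e3] at e2
    simp only [smul_eq_mul, mul_zero, add_zero, zero_add, neg_mul] at e1 e2
    have e4 : Complex.I * (φ (r1 i y x) - φ (r1 i x y)) = 0 := by linear_combination e2
    have e5 := (mul_eq_zero.1 e4).resolve_left Complex.I_ne_zero
    have e6 : (2 : ℂ) * φ (r1 i x y) = 0 := by linear_combination e1 - e5
    exact (mul_eq_zero.1 e6).resolve_left two_ne_zero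
  have h3 : ξ = ∑ i, ∑ r, ∑ s, ξ i r s • r1 i (Pi.single r 1) (Pi.single s 1) := by
    have e1 : ξ = ∑ i, Pi.single i (ξ i) := (Finset.univ_sum_single ξ).symm
    conv_lhs => rw [e1]
    refine sum_congr rfl fun i _ => ?_
    have e2 : ξ i = ∑ r, ∑ s, ξ i r s • vecMulVec (Pi.single r 1) (star (Pi.single s (1 : ℂ))) := by
      ext a b
      simp only [Matrix.sum_apply, Matrix.smul_apply, vecMulVec_apply, smul_eq_mul, Pi.star_apply]
      rw [Finset.sum_eq_single a, Finset.sum_eq_single b]
      · simp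
      · intro s _ hs
        rw [Pi.single_eq_of_ne (Ne.symm hs)]
        simp
      · intro hb
        exact absurd (mem_univ _) hb
      · intro r _ hr
        refine sum_eq_zero fun s _ => ?_
        rw [Pi.single_eq_of_ne (Ne.symm hr)]
        simp
      · intro hb
        exact absurd (mem_univ _) hb
    have e3 : ∀ M : Matrix (Fin (v i)) (Fin (v i)) ℂ,
        (Pi.single i M : Gl v) = LinearMap.single ℂ _ i M := fun _ => rfl
    rw [e3, e2, map_sum]
    refine sum_congr rfl fun r _ => ?_
    rw [map_sum]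
    refine sum_congr rfl fun s _ => ?_
    rw [map_smul, ← e3, ← e2]
    rfl
  rw [h3]
  simp only [map_sum, map_smul, h2, smul_zero, sum_const_zero]

end Vale.Agent.P291.RG.H17
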